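import Vale.Agent.P280A30.Rows

/-!
# P280N55: the algebraic nefness of the tangent bundle gives the analytic one
-/

open scoped Manifold ContDiff Topology
open MvPolynomial Matrix Filter
open Vale.Agent.P272.K Vale.Agent.P285.H281.FD Vale.Agent.P300.Final Vale.Agent.P299G40
open Vale.Agent.P280Z (Fano NefT QuoC)
open Vale.Agent.P281Z (Pos)

noncomputable section

namespace Vale.Agent.P280A

section

variable {S : Type} [TopologicalSpace S] [ChartedSpace (Cm 1) S]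

theorem nef55_congr {h k : S → ℂ} {p : S} {m : ℤ} (H : OrdAt h p m) (e : h =ᶠ[𝓝[≠] p] k) :
    OrdAt k p m := by
  obtain ⟨u, h1, h2, h3⟩ := H
  exact ⟨u, h1, h2, (h3.and e).mono fun x hx => hx.2.symm.trans hx.1⟩

theorem nef55_t (p : S) :
    ∀ᶠ x in 𝓝[≠] p, chartAt (Cm 1) p x 0 - chartAt (Cm 1) p p 0 ≠ 0 := by
  have h1 : ∀ᶠ x in 𝓝[≠] p, x ∈ (chartAt (Cm 1) p).source :=
    mem_nhdsWithin_of_mem_nhds (chart_source_mem_nhds (Cm 1) p)
  filter_upwards [h1, self_mem_nhdsWithin] with x hx hxp h0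
  refine hxp ((chartAt (Cm 1) p).injOn hx (mem_chart_source _ p) ?_)
  funext i
  rw [Subsingleton.elim i 0]
  exact sub_eq_zero.1 h0

theorem nef55_mul {h k : S → ℂ} {p : S} {m m' : ℤ} (H : OrdAt h p m) (K : OrdAt k p m') :
    OrdAt (fun x => h x * k x) p (m + m') := by
  obtain ⟨u, h1, h2, h3⟩ := H
  obtain ⟨v, k1, k2, k3⟩ := K
  refine ⟨fun x => u x * v x, h1.mul k1, mul_ne_zero h2 k2, ?_⟩
  filter_upwards [h3, k3, nef55_t p] with x a b c
  rw [a, b, zpow_add₀ c]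
  ring

theorem nef55_inv {h : S → ℂ} {p : S} {m : ℤ} (H : OrdAt h p m) :
    OrdAt (fun x => (h x)⁻¹) p (-m) := by
  obtain ⟨u, h1, h2, h3⟩ := H
  refine ⟨fun x => (u x)⁻¹, h1.inv ?_, inv_ne_zero h2, ?_⟩
  · rwa [(chartAt (Cm 1) p).left_inv (mem_chart_source _ p)]
  · filter_upwards [h3] with x a
    rw [a, mul_inv, _root_.zpow_neg]

theorem nef55_ne {h : S → ℂ} {p : S} {m : ℤ} (H : OrdAt h p m) : ∀ᶠ x in 𝓝[≠] p, h x ≠ 0 := by
  obtain ⟨u, h1, h2, h3⟩ := H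
  have h4 : ContinuousAt (fun x => u ((chartAt (Cm 1) p).symm (chartAt (Cm 1) p x))) p :=
    ContinuousAt.comp (g := fun z => u ((chartAt (Cm 1) p).symm z)) h1.continuousAt
      ((chartAt (Cm 1) p).continuousAt (mem_chart_source _ p))
  have h5 := h4.eventually_ne
    (y := 0) (by rwa [(chartAt (Cm 1) p).left_inv (mem_chart_source _ p)])
  filter_upwards [h3, nef55_t p, mem_nhdsWithin_of_mem_nhds h5,
    mem_nhdsWithin_of_mem_nhds (chart_source_mem_nhds (Cm 1) p)] with x a b c d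
  rw [(chartAt (Cm 1) p).left_inv d] at c
  rw [a]
  exact mul_ne_zero c (zpow_ne_zero _ b)

theorem nef55_lb {L : Bd S} (hM : IsLB 1 L) : IsLB 1 (P277.Bd.inv L) where
  isOpen := hM.isOpen
  cover := hM.cover
  holo i j e x he hi hj := by
    have h1 := hM.holo i j e x he hi hj
    have h2 : L.g i j (e.symm (e x)) ≠ 0 := by
      rw [e.left_inv he.2]; exact hM.ne_zero i j x hi hj
    exact h1.inv h2
  ne_zero i j x hi hj := inv_ne_zero (hM.ne_zero i j x hi hj)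
  cocycle i j k x hi hj hk := by
    change (L.g i j x)⁻¹ * (L.g j k x)⁻¹ = (L.g i k x)⁻¹
    rw [← mul_inv, hM.cocycle i j k x hi hj hk]

end

theorem nef55_hol {n N : ℕ} {X S : Type} [TopologicalSpace X] [ChartedSpace (Cm n) X]
    [TopologicalSpace S] [ChartedSpace (Cm 1) S] [IsManifold 𝓘(ℂ, Cm 1) ω S] {Φ : X → PN N}
    {f : S → X} (hΦ : IsProjectiveImmersion (Cm n) Φ)
    (hf : ContMDiff 𝓘(ℂ, Cm 1) 𝓘(ℂ, Cm n) ω f) : HolP 1 fun c => Φ (f c) := by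
  intro x
  obtain ⟨W, s, hx, ⟨hW, hs⟩, h1, -⟩ := hΦ (f x)
  refine ⟨fun c => s (f c), fun e he => ?_, ?_⟩
  · have h2 : ContMDiffAt 𝓘(ℂ, Cm 1) 𝓘(ℂ, Fin (N + 1) → ℂ) ω (fun c => s (f c)) x :=
      (hs.contMDiffAt (hW.mem_nhds hx)).comp x (hf x)
    have h3 : ContMDiffAt 𝓘(ℂ, Cm 1) 𝓘(ℂ, Cm 1) ω e.symm (e x) :=
      contMDiffAt_symm_of_mem_maximalAtlas (IsManifold.subset_maximalAtlas he.1)
        (e.map_source he.2)
    rw [← e.left_inv he.2] at h2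
    exact (contMDiffAt_iff_contDiffAt.1 (h2.comp (e x) h3)).analyticAt
  · filter_upwards [hf.continuous.continuousAt.preimage_mem_nhds (hW.mem_nhds hx)] with y hy
    exact h1 _ hy

theorem nef55 (hE : EMB) (hV : VAR) (hM : MAP) (hC : COV) (hR : MER) (hD : DEG) (n N : ℕ)
    (Z : Set (PN N)) (X : Type) [TopologicalSpace X] [ChartedSpace (Cm n) X]
    [IsManifold 𝓘(ℂ, Cm n) ω X] (Φ : X → PN N) (hZ : IsSmoothVariety n Z)
    (hΦ : IsAnalytification n Z Φ) (hN : IsNefTangent n Z) : NefT n X := by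
  classical
  intro C f L α hc hf hL hα hP
  obtain ⟨K, Θ, hΘ, hΘ'⟩ := hE C.X _ (nef55_lb hL) hP
  obtain ⟨F, hF, hF'⟩ := hM 1 K N C.X Θ _ hΘ hΘ' (nef55_hol hΦ.2.1 hf)
  obtain ⟨H, A, h1, h2, h3, h4⟩ := hC n N K Z X Φ C.X Θ f L α hZ hΦ hΘ hΘ' hf hL hα
  choose P d l i E hP1 hl hi hE1 hE2 hker hord using h4
  choose a ha using hL.cover
  choose r m hr hm0 hrA using fun c p => hord c p (a p) (ha p)
  obtain ⟨c₀⟩ := hc.toNonempty
  have hex : ∀ c : C.X, ∃ w ∈ tangent Z (Φ (f c)), (∃ w' ∈ tangent Z (Φ (f c)),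
      val (P c₀) (Θ c) ⬝ᵥ w' / ((Θ c).rep (l c₀) ^ d c₀ * (Φ (f c)).rep (i c₀)) ≠ 0) →
      val (P c₀) (Θ c) ⬝ᵥ w / ((Θ c).rep (l c₀) ^ d c₀ * (Φ (f c)).rep (i c₀)) = 1 := by
    intro c
    by_cases h : ∃ w' ∈ tangent Z (Φ (f c)),
      val (P c₀) (Θ c) ⬝ᵥ w' / ((Θ c).rep (l c₀) ^ d c₀ * (Φ (f c)).rep (i c₀)) ≠ 0
    · obtain ⟨w, hw, h0⟩ := h
      refine ⟨_, Submodule.smul_mem _ (val (P c₀) (Θ c) ⬝ᵥ w /
        ((Θ c).rep (l c₀) ^ d c₀ * (Φ (f c)).rep (i c₀)))⁻¹ hw, fun _ => ?_⟩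
      rw [dotProduct_smul, smul_eq_mul, mul_div_assoc, inv_mul_cancel₀ h0]
    · exact ⟨0, Submodule.zero_mem _, fun h' => (h h').elim⟩
  choose v hv hv1 using hex
  have hs : ∀ p, OrdAt (fun c => A (a p) c (v c)) p (-m c₀ p) := by
    intro p
    refine nef55_congr (nef55_inv (hr c₀ p)) ?_
    filter_upwards [hrA c₀ p, nef55_ne (hr c₀ p),
      mem_nhdsWithin_of_mem_nhds ((hL.isOpen (a p)).mem_nhds (ha p))] with c e1 e2 e3
    have hw : ∃ w ∈ tangent Z (Φ (f c)), w ∉ H c := by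
      by_contra hn
      push Not at hn
      have e4 : H c = tangent Z (Φ (f c)) := le_antisymm (h1 c).2.2.1 hn
      have e5 := (h1 c).2.2.2
      rw [e4, hZ.smooth _ (h1 c).1] at e5
      omega
    obtain ⟨w, hw, hw'⟩ := hw
    have e6 := hv1 c ⟨w, hw, by
      rw [e1 w hw]
      exact mul_ne_zero e2 fun h0 => hw' ((h2 _ c e3 w hw).2 h0)⟩
    rw [e1 _ (hv c)] at e6
    exact (eq_inv_of_mul_eq_one_right e6).symm
  obtain ⟨hfin, hlt⟩ := hD C.X L (fun b c => A b c (v c)) (fun p => -m c₀ p) hL hP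
    (fun b b' x hb hb' => h3 b b' x _ hb hb') fun p => ⟨a p, ha p, hs p⟩
  have : Nonempty C.X := ⟨c₀⟩
  have hinv : ∀ c, Function.invFun Θ (Θ c) = c := Function.leftInverse_invFun hΘ
  have key := hN K (Set.range Θ) F (fun y => H (Function.invFun Θ y))
    (fun y => v (Function.invFun Θ y))
    (Finsupp.mapDomain Θ (Finsupp.ofSupportFinite _ hfin)) (hV K C.X Θ hΘ hΘ') hF ?_ ?_
  · rw [Finsupp.sum_mapDomain_index (fun _ => rfl) (fun _ _ _ => rfl)] at key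
    refine absurd key (not_le.2 (lt_of_eq_of_lt ?_ hlt))
    rw [finsum_eq_sum _ hfin]
    rfl
  · rintro _ ⟨c, rfl⟩
    rw [hF', hinv, Finsupp.mapDomain_apply hΘ]
    refine ⟨h1 c, hv c, P c, d c, l c, i c, Θ '' E c, hP1 c, hl c, by rw [hF']; exact hi c,
      (hE1 c).image _, fun h => hE2 c ((hΘ.mem_set_image).1 h), ?_, ?_⟩
    · rintro _ ⟨⟨y, rfl⟩, hy⟩
      simp only [hF', hinv]
      exact hker c y fun h => hy ⟨y, h, rfl⟩
    · have h5 : ∀ p, OrdAt (fun x => val (P c) (Θ x) ⬝ᵥ v (Function.invFun Θ (Θ x)) /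
          ((Θ x).rep (l c) ^ d c * (F (Θ x)).rep (i c))) p (m c p + -m c₀ p) := by
        intro p
        refine nef55_congr (nef55_mul (hr c p) (hs p)) ?_
        filter_upwards [hrA c p] with x e1
        rw [hF', hinv, e1 _ (hv x)]
      refine hR K C.X Θ _ hΘ hΘ' (fun p => ⟨_, h5 p⟩) c _ ?_
      have h6 := h5 c
      rwa [hm0 c c rfl, zero_add] at h6
  · intro y hy
    obtain ⟨c, -, rfl⟩ := Finset.mem_image.1 (Finsupp.mapDomain_support hy)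
    exact ⟨c, rfl⟩

end Vale.Agent.P280A

end
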